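import Mathlib

namespace Vale.Agent.N082B

/-- The Hochschild differential of a `k`-cochain `f` of `A` with values in a bimodule `X` with
left action `l` and right action `r`, evaluated at `a = (a₀, …, a_k)`. -/
def dH {A X : Type*} [Mul A] [AddCommGroup X] (l : A → X → X) (r : X → A → X) {k : ℕ}
    (f : (Fin k → A) → X) (a : Fin (k + 1) → A) : X :=
  l (a 0) (f (Fin.tail a))
    + ∑ j : Fin k, (-1 : ℤ) ^ (j.val + 1) • f (Fin.contractNth j.castSucc (· * ·) a)
    + (-1 : ℤ) ^ (k + 1) • r (f (Fin.init a)) (a (Fin.last k))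

/-- The bounded Hochschild cohomology of `A` with coefficients in `X` vanishes in all degrees
`k + 1 ≥ 1`: every bounded cocycle is the coboundary of a bounded cochain. -/
def Vanishes (A X : Type*) [NormedRing A] [NormedSpace ℂ A] [NormedAddCommGroup X]
    [NormedSpace ℂ X] (l : A → X → X) (r : X → A → X) : Prop :=
  ∀ (k : ℕ) (f : ContinuousMultilinearMap ℂ (fun _ : Fin (k + 1) => A) X),
    (∀ a, dH l r f a = 0) →
    ∃ g : ContinuousMultilinearMap ℂ (fun _ : Fin k => A) X, ∀ a, dH l r g a = f a

end Vale.Agent.N082B
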