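import Vale.Agent.N104J.Ext
import Vale.Agent.N104J.Inj

/-!
# A representation in which every functional is a vector functional
-/

open scoped ComplexOrder InnerProductSpace ComplexStarModule Topology
open Filter

namespace Vale.Agent.N082B

open Vale.Agent.P104

universe u v w

section State

variable {A : Type u} [CStarAlgebra A] [PartialOrder A] [StarOrderedRing A]
variable {H : Type v} [NormedAddCommGroup H] [InnerProductSpace ℂ H]

/-- the cone used to dominate `T` by a state -/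
noncomputable def cone (T : A →L[ℂ] H) (C : ℝ) : PointedCone ℝ (A × ℝ) where
  carrier := {p | ∃ (ι : Type) (_ : Fintype ι) (a : ι → A) (t : ℝ), 0 ≤ t ∧
    (ℜ p.1 : A) + ∑ i, star (a i) * a i ≤ algebraMap ℝ A t ∧
    C * t - ∑ i, ‖T (a i)‖ ^ 2 ≤ p.2}
  zero_mem' := ⟨Empty, inferInstance, fun _ => 0, 0, le_rfl, by simp, by simp⟩
  add_mem' := by
    rintro p q ⟨ι, _, a, t, ht, h1, h2⟩ ⟨κ, _, b, s, hs, h3, h4⟩
    refine ⟨ι ⊕ κ, inferInstance, Sum.elim a b, t + s, add_nonneg ht hs, ?_, ?_⟩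
    · rw [Fintype.sum_sum_type]
      simp only [Sum.elim_inl, Sum.elim_inr, Prod.fst_add, map_add, AddSubgroup.coe_add]
      calc _ = ((ℜ p.1 : A) + ∑ i, star (a i) * a i) + ((ℜ q.1 : A) + ∑ i, star (b i) * b i) := by
            abel
        _ ≤ _ := add_le_add h1 h3
    · rw [Fintype.sum_sum_type]
      simp only [Sum.elim_inl, Sum.elim_inr, Prod.snd_add]
      linarith only [h2, h4]
  smul_mem' := by
    rintro ⟨r, hr⟩ p ⟨ι, _, a, t, ht, h1, h2⟩
    have hsq : √r * √r = r := Real.mul_self_sqrt hr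
    refine ⟨ι, inferInstance, fun i => (√r : ℝ) • a i, r * t, mul_nonneg hr ht, ?_, ?_⟩
    · have e1 : ∑ i, star ((√r : ℝ) • a i) * ((√r : ℝ) • a i) = r • ∑ i, star (a i) * a i := by
        rw [Finset.smul_sum]
        refine Finset.sum_congr rfl fun i _ => ?_
        rw [star_smul, star_trivial, smul_mul_smul_comm, hsq]
      have e2 : ((⟨r, hr⟩ : {x : ℝ // 0 ≤ x}) • p) = r • p := rfl
      rw [e1, e2, Prod.smul_fst, map_smul, selfAdjoint.val_smul, ← smul_add, map_mul,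
        ← Algebra.smul_def]
      exact smul_le_smul_of_nonneg_left h1 hr
    · have e2 : ((⟨r, hr⟩ : {x : ℝ // 0 ≤ x}) • p) = r • p := rfl
      have e3 : ∑ i, ‖T ((√r : ℝ) • a i)‖ ^ 2 = r * ∑ i, ‖T (a i)‖ ^ 2 := by
        rw [Finset.mul_sum]
        refine Finset.sum_congr rfl fun i _ => ?_
        rw [← Complex.coe_smul, map_smul, norm_smul,
          Complex.norm_real, Real.norm_of_nonneg (Real.sqrt_nonneg r), mul_pow, Real.sq_sqrt hr]
      rw [e2, e3, Prod.smul_snd, smul_eq_mul]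
      linarith only [mul_nonneg (sub_nonneg.2 hr) (sub_nonneg.2 h2)]

lemma mem_cone {T : A →L[ℂ] H} {C : ℝ} {p : A × ℝ} :
    p ∈ cone T C ↔ ∃ (ι : Type) (_ : Fintype ι) (a : ι → A) (t : ℝ), 0 ≤ t ∧
    (ℜ p.1 : A) + ∑ i, star (a i) * a i ≤ algebraMap ℝ A t ∧
    C * t - ∑ i, ‖T (a i)‖ ^ 2 ≤ p.2 := Iff.rfl

theorem exists_state (T : A →L[ℂ] H) {C : ℝ} (hC0 : 0 ≤ C)
    (hT : ∀ (ι : Type) [Fintype ι] (a : ι → A), ∑ i, ‖T (a i)‖ ^ 2 ≤ C * ‖∑ i, star (a i) * a i‖) :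
    ∃ φ : A →ₚ[ℂ] ℂ, (∀ a, ‖T a‖ ^ 2 ≤ (φ (star a * a)).re) ∧ (φ 1).re ≤ C := by
  let f0 : (A × ℝ) →ₗ.[ℝ] ℝ :=
    { domain := Submodule.prod ⊥ ⊤
      toFun := (LinearMap.snd ℝ A ℝ).comp (Submodule.subtype _) }
  obtain ⟨g, hg0, hgs⟩ := riesz_extension (cone T C) f0 (by
    rintro ⟨⟨x, r⟩, hx, hr⟩ hp
    have hx0 : x = 0 := hx
    subst hx0
    change (0 : ℝ) ≤ r
    obtain ⟨ι, _, a, t, ht, h1, h2⟩ := mem_cone.1 hp
    replace h1 : (ℜ (0 : A) : A) + ∑ i, star (a i) * a i ≤ algebraMap ℝ A t := h1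
    simp only [map_zero, ZeroMemClass.coe_zero, zero_add] at h1
    have h3 := (CStarAlgebra.norm_le_iff_le_algebraMap _ ht
      (Finset.sum_nonneg fun i _ => star_mul_self_nonneg (a i))).2 h1
    have h4 := hT ι a
    have h5 := mul_le_mul_of_nonneg_left h3 hC0
    have h6 : C * t - ∑ i, ‖T (a i)‖ ^ 2 ≤ r := h2
    linarith only [h6, h4, h5]) (by
    rintro ⟨y, r⟩
    refine ⟨⟨(0, C * ‖(ℜ y : A)‖ - r), ⟨rfl, trivial⟩⟩, ?_⟩
    refine mem_cone.2 ⟨Empty, inferInstance, fun _ => 0, ‖(ℜ y : A)‖, norm_nonneg _, ?_, ?_⟩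
    · simp only [Prod.mk_add_mk, zero_add, Finset.univ_eq_empty, Finset.sum_empty, add_zero]
      exact IsSelfAdjoint.le_algebraMap_norm_self (ℜ y).2
    · simp)
  have hg1 : ∀ x r, g (x, r) = g (x, 0) + r := by
    intro x r
    have h1 : ((x, r) : A × ℝ) = (x, 0) + (0, r) := by simp
    have h2 : g (0, r) = r := hg0 ⟨(0, r), ⟨rfl, trivial⟩⟩
    rw [h1, map_add, h2]
  set fr : A →ₗ[ℝ] ℝ := -(g.comp (LinearMap.inl ℝ A ℝ)) with hfr
  have hfr1 : ∀ x, fr x = -g (x, 0) := fun x => rfl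
  have hfr2 : ∀ x r, (x, r) ∈ cone T C → fr x ≤ r := by
    intro x r hxr
    have h1 := hgs _ hxr
    rw [hg1] at h1
    rw [hfr1]
    linarith only [h1]
  set fr' : A →ₗ[ℝ] ℝ := fr.comp ((selfAdjoint.submodule ℝ A).subtype.comp realPart) with hfr'
  have hfr'1 : ∀ x, fr' x = fr (ℜ x : A) := fun x => rfl
  have hsa : ∀ x : A, IsSelfAdjoint x → (ℜ x : A) = x := fun x hx => hx.coe_realPart
  have hpos : ∀ x : A, 0 ≤ x → 0 ≤ fr x := by
    intro x hx
    have h1 : ((-x, (0 : ℝ)) : A × ℝ) ∈ cone T C := by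
      refine mem_cone.2 ⟨Empty, inferInstance, fun _ => 0, 0, le_rfl, ?_, by simp⟩
      simp only [hsa _ (IsSelfAdjoint.of_nonneg hx).neg, Finset.univ_eq_empty, Finset.sum_empty,
        add_zero, map_zero]
      exact neg_nonpos.2 hx
    have h2 := hfr2 _ _ h1
    rw [map_neg] at h2
    linarith only [h2]
  let fc : A →ₗ[ℂ] ℂ := Module.Dual.extendRCLike fr'
  have hfc : ∀ x : A, IsSelfAdjoint x → fc x = (fr x : ℂ) := by
    intro x hx
    have h1 : fc x = (fr' x : ℂ) - Complex.I * (fr' (Complex.I • x) : ℂ) :=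
      Module.Dual.extendRCLike_apply fr' x
    have h2 : fr' (Complex.I • x) = 0 := by
      rw [hfr'1, realPart_I_smul, hx.imaginaryPart]
      simp
    rw [h1, h2, hfr'1, hsa x hx]
    simp
  let φ : A →ₚ[ℂ] ℂ := PositiveLinearMap.mk₀ fc (fun x hx => by
    rw [hfc x (IsSelfAdjoint.of_nonneg hx)]
    exact_mod_cast hpos x hx)
  have hφ : ∀ x : A, IsSelfAdjoint x → φ x = (fr x : ℂ) := hfc
  refine ⟨φ, ?_, ?_⟩
  · intro a
    rw [hφ _ (IsSelfAdjoint.star_mul_self a), Complex.ofReal_re]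
    have h1 : ((-(star a * a), -‖T a‖ ^ 2) : A × ℝ) ∈ cone T C := by
      refine mem_cone.2 ⟨Unit, inferInstance, fun _ => a, 0, le_rfl, ?_, by simp⟩
      simp only [hsa _ (IsSelfAdjoint.star_mul_self a).neg, Finset.univ_unique, Finset.sum_const,
        Finset.card_singleton, one_smul, map_zero]
      simp
    have h2 := hfr2 _ _ h1
    rw [map_neg] at h2
    linarith only [h2]
  · rw [hφ _ (IsSelfAdjoint.one A), Complex.ofReal_re]
    apply hfr2
    refine mem_cone.2 ⟨Empty, inferInstance, fun _ => 0, 1, zero_le_one, ?_, by simp⟩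
    simp

theorem row_bound (ω : StrongDual ℂ A) (ι : Type) [Fintype ι] (a : ι → A) :
    ∑ i, ‖ω (a i)‖ ^ 2 ≤ ‖ω‖ ^ 2 * ‖∑ i, star (a i) * a i‖ := by
  obtain ⟨s, hs⟩ : ∃ s, s = ∑ i, ‖ω (a i)‖ ^ 2 := ⟨_, rfl⟩
  obtain ⟨y, hy⟩ : ∃ y, y = ∑ i, star (ω (a i)) • a i := ⟨_, rfl⟩
  have s0 : 0 ≤ s := hs ▸ Finset.sum_nonneg fun _ _ => sq_nonneg _
  have e1 : ω y = (s : ℂ) := by
    rw [hy, hs, map_sum]
    push_cast
    refine Finset.sum_congr rfl fun i _ => ?_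
    rw [map_smul, smul_eq_mul, Complex.star_def, Complex.conj_mul']
  have e2 : star y * y ≤ s • ∑ i, star (a i) * a i := by
    have p : ∀ i j, 0 ≤ star (ω (a i) • a j - ω (a j) • a i) * (ω (a i) • a j - ω (a j) • a i) :=
      fun i j => star_mul_self_nonneg _
    have q := Finset.sum_nonneg fun i (_ : i ∈ Finset.univ) =>
      Finset.sum_nonneg fun j (_ : j ∈ Finset.univ) => p i j
    have e3 : s • ∑ i, star (a i) * a i =
        ∑ i, ∑ j, (star (ω (a i)) * ω (a i)) • (star (a j) * a j) := by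
      rw [← Complex.coe_smul, hs]
      push_cast
      rw [Finset.sum_smul]
      refine Finset.sum_congr rfl fun i _ => ?_
      rw [Finset.smul_sum, Complex.star_def, Complex.conj_mul']
    have e4 : star y * y = ∑ i, ∑ j, (ω (a i) * star (ω (a j))) • (star (a i) * a j) := by
      simp only [hy, star_sum, star_smul, star_star, Finset.sum_mul, Finset.mul_sum,
        smul_mul_smul_comm]
      exact Finset.sum_comm
    have e5 : ∑ i, ∑ j, star (ω (a i) • a j - ω (a j) • a i) * (ω (a i) • a j - ω (a j) • a i)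
        = (2 : ℝ) • (s • ∑ i, star (a i) * a i - star y * y) := by
      simp only [star_sub, star_smul, sub_mul, mul_sub, smul_mul_smul_comm, Finset.sum_sub_distrib]
      rw [two_smul, e3, e4]
      rw [Finset.sum_comm (f := fun i j => (star (ω (a j)) * ω (a j)) • (star (a i) * a i)),
        Finset.sum_comm (f := fun i j => (star (ω (a i)) * ω (a j)) • (star (a j) * a i))]
      simp only [mul_comm (star (ω _)) (ω _)]
      abel
    rw [e5] at q
    exact sub_nonneg.1 (nonneg_of_smul_nonneg_of_pos_left q two_pos)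
  have e6 := CStarAlgebra.norm_le_norm_of_nonneg_of_le (star_mul_self_nonneg y) e2
  rw [CStarRing.norm_star_mul_self, norm_smul, Real.norm_of_nonneg s0] at e6
  have e7 := ω.le_opNorm y
  rw [e1, Complex.norm_real, Real.norm_of_nonneg s0] at e7
  rw [← hs]
  rcases s0.eq_or_lt with h | h
  · rw [← h]; positivity
  · have := pow_le_pow_left₀ s0 e7 2
    have := mul_le_mul_of_nonneg_left e6 (sq_nonneg ‖ω‖)
    refine le_of_mul_le_mul_left ?_ h
    nlinarith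

theorem exists_gns (ω : StrongDual ℂ A) : ∃ (φ : A →ₚ[ℂ] ℂ) (ξ η : φ.GNS),
    ‖ξ‖ * ‖η‖ ≤ ‖ω‖ ∧ ∀ a, ω a = ⟪η, φ.gnsStarAlgHom a ξ⟫_ℂ := by
  obtain ⟨φ, h1, h2⟩ := exists_state ω (sq_nonneg ‖ω‖) (row_bound ω)
  let e : A →ₗ[ℂ] φ.GNS :=
    { toFun := fun a => φ.gnsStarAlgHom a (Ext.cyc φ)
      map_add' := fun a b => by rw [map_add, add_apply]
      map_smul' := fun z a => by rw [map_smul, smul_apply, RingHom.id_apply] }
  have hd : DenseRange e := by
    have : (e : A → φ.GNS) = ((↑) : φ.PreGNS → φ.GNS) ∘ φ.toPreGNS :=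
      funext fun a => Ext.gns_cyc φ a
    rw [this]
    exact UniformSpace.Completion.denseRange_coe.comp φ.toPreGNS.surjective.denseRange
      (UniformSpace.Completion.continuous_coe _)
  have hn : ∀ a, ‖ω.toLinearMap a‖ ≤ 1 * ‖e a‖ := fun a => by
    rw [one_mul]
    refine (sq_le_sq₀ (norm_nonneg _) (norm_nonneg _)).1 ((h1 a).trans_eq ?_)
    exact (Ext.norm_gns_cyc φ a).symm
  refine ⟨φ, Ext.cyc φ, (InnerProductSpace.toDual ℂ _).symm (ω.toLinearMap.extendOfNorm e), ?_,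
    fun a => ?_⟩
  · have a1 : ‖Ext.cyc φ‖ ≤ ‖ω‖ :=
      (sq_le_sq₀ (norm_nonneg _) (norm_nonneg _)).1 ((Ext.norm_cyc φ).trans_le h2)
    rw [LinearIsometryEquiv.norm_map]
    exact (mul_le_of_le_one_right (norm_nonneg _)
      (LinearMap.opNorm_extendOfNorm_le hd zero_le_one hn)).trans a1
  · rw [InnerProductSpace.toDual_symm_apply]
    exact (LinearMap.extendOfNorm_eq hd ⟨1, hn⟩ a).symm

end State

variable {A : Type u} [CStarAlgebra A]
variable {K : Type w} [NormedAddCommGroup K] [InnerProductSpace ℂ K] [CompleteSpace K]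

/-- every functional is a vector functional -/
def Univ (ρ : A →⋆ₐ[ℂ] (K →L[ℂ] K)) : Prop :=
  ∀ ω : StrongDual ℂ A, ∃ ξ η : K, ‖ξ‖ * ‖η‖ ≤ ‖ω‖ ∧ ∀ a, ω a = ⟪η, ρ a ξ⟫_ℂ

theorem exists_univ (A : Type u) [CStarAlgebra A] :
    ∃ (K : Type u) (_ : NormedAddCommGroup K) (_ : InnerProductSpace ℂ K) (_ : CompleteSpace K)
      (ρ : A →⋆ₐ[ℂ] (K →L[ℂ] K)), Univ ρ := by
  classical
  let _ : PartialOrder A := CStarAlgebra.spectralOrder A
  have _ : StarOrderedRing A := CStarAlgebra.spectralOrderedRing A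
  refine ⟨lp (fun φ : A →ₚ[ℂ] ℂ => φ.GNS) 2, inferInstance, inferInstance, inferInstance,
    Ext.diag (fun φ => φ.gnsStarAlgHom), fun ω => ?_⟩
  obtain ⟨φ, ξ, η, h1, h2⟩ := exists_gns ω
  refine ⟨lp.single 2 φ ξ, lp.single 2 φ η, ?_, fun a => ?_⟩
  · rwa [lp.norm_single (by norm_num), lp.norm_single (by norm_num)]
  · rw [Ext.diag_single, lp.inner_single_left, lp.single_apply_self, h2]

/-- vector functionals -/
noncomputable def vf (η ξ : K) : StrongDual ℂ (K →L[ℂ] K) :=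
  (innerSL ℂ η).comp (ContinuousLinearMap.apply ℂ K ξ)

omit [CompleteSpace K] in
theorem vf_apply (η ξ : K) (T : K →L[ℂ] K) : vf η ξ T = ⟪η, T ξ⟫_ℂ := rfl

theorem norm_vf (η ξ : K) : ‖vf η ξ‖ ≤ ‖η‖ * ‖ξ‖ :=
  ContinuousLinearMap.opNorm_le_bound _ (by positivity) fun T =>
    (norm_inner_le_norm _ _).trans ((mul_le_mul_of_nonneg_left (T.le_opNorm ξ)
      (norm_nonneg _)).trans_eq (by ring))

omit [CompleteSpace K] in
theorem op_ext {T R : K →L[ℂ] K} (h : ∀ η ξ, ⟪η, T ξ⟫_ℂ = ⟪η, R ξ⟫_ℂ) : T = R :=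
  ContinuousLinearMap.ext fun ξ => ext_inner_left ℂ fun η => h η ξ

theorem exists_D (K : Type w) [NormedAddCommGroup K] [InnerProductSpace ℂ K] [CompleteSpace K] :
    ∃ D : StrongDual ℂ (StrongDual ℂ (K →L[ℂ] K)) →L[ℂ] (K →L[ℂ] K),
      ∀ G η ξ, ⟪η, D G ξ⟫_ℂ = G (vf η ξ) := by
  have : ∀ G : StrongDual ℂ (StrongDual ℂ (K →L[ℂ] K)), ∃ T : K →L[ℂ] K, ‖T‖ ≤ 1 * ‖G‖ ∧
      ∀ η ξ, ⟪η, T ξ⟫_ℂ = G (vf η ξ) := by
    intro G
    have hb : ∀ η ξ, ‖G (vf η ξ)‖ ≤ ‖G‖ * ‖η‖ * ‖ξ‖ := fun η ξ =>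
      (G.le_of_opNorm_le_of_le le_rfl (norm_vf η ξ)).trans_eq (mul_assoc _ _ _).symm
    let B₀ : K →ₛₗ[starRingEnd ℂ] K →ₗ[ℂ] ℂ := LinearMap.mk₂'ₛₗ (starRingEnd ℂ) (RingHom.id ℂ)
      (fun η ξ => G (vf η ξ))
      (fun η η' ξ => by
        rw [← map_add]; congr 1; ext T; simp only [vf_apply, add_apply, inner_add_left])
      (fun z η ξ => by
        rw [← map_smul]; congr 1; ext T
        simp only [vf_apply, smul_apply, inner_smul_left, smul_eq_mul])
      (fun η ξ ξ' => by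
        rw [← map_add]; congr 1; ext T; simp only [vf_apply, add_apply, map_add, inner_add_right])
      (fun z η ξ => by
        rw [← map_smul]; congr 1; ext T
        simp only [vf_apply, smul_apply, map_smul, inner_smul_right, smul_eq_mul, RingHom.id_apply])
    let B : K →L⋆[ℂ] K →L[ℂ] ℂ := B₀.mkContinuous₂ ‖G‖ hb
    have h1 : ∀ η ξ, ⟪η, (InnerProductSpace.continuousLinearMapOfBilin B).adjoint ξ⟫_ℂ =
        G (vf η ξ) := fun η ξ => by
      rw [ContinuousLinearMap.adjoint_inner_right,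
        InnerProductSpace.continuousLinearMapOfBilin_apply]
      rfl
    refine ⟨_, ContinuousLinearMap.opNorm_le_bound _ (by positivity) fun ξ => ?_, h1⟩
    obtain ⟨y, hy⟩ : ∃ y, y = (InnerProductSpace.continuousLinearMapOfBilin B).adjoint ξ := ⟨_, rfl⟩
    have h2 := hb y ξ
    rw [← h1, ← hy, inner_self_eq_norm_sq_to_K, norm_pow, RCLike.norm_ofReal, abs_norm] at h2
    rw [← hy]
    rcases (norm_nonneg y).eq_or_lt with h | h
    · rw [← h]; positivity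
    · refine le_of_mul_le_mul_left ?_ h
      nlinarith
  choose T h1 h2 using this
  refine ⟨LinearMap.mkContinuous
    { toFun := T
      map_add' := fun G G' => op_ext fun η ξ => ?_
      map_smul' := fun z G => op_ext fun η ξ => ?_ } 1 h1, h2⟩
  · simp only [add_apply, inner_add_right, h2]
  · simp only [smul_apply, inner_smul_right, h2, RingHom.id_apply, smul_eq_mul]

open Vale.Agent.N104J in
theorem weak_nb (ρ : A →⋆ₐ[ℂ] (K →L[ℂ] K)) (x : K →L[ℂ] K) (η ξ : K) :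
    Tendsto (fun a => ⟪η, ρ a ξ⟫_ℂ) (nb ρ x) (𝓝 ⟪η, x ξ⟫_ℂ) :=
  tendsto_const_nhds.inner (ss_nb ρ x ξ).1

open Vale.Agent.N104J in
/-- the bicommutant maps to the bidual -/
theorem exists_t {ρ : A →⋆ₐ[ℂ] (K →L[ℂ] K)} (h : Univ ρ) :
    ∃ t : comm (Ext.cmt ρ) →L[ℂ] StrongDual ℂ (StrongDual ℂ A), (∀ x, ‖t x‖ ≤ ‖x‖) ∧
      ∀ (x : comm (Ext.cmt ρ)) (ω : StrongDual ℂ A), Tendsto ω (nb ρ x) (𝓝 (t x ω)) := by
  choose ξ η h1 h2 using h
  have nbb := nb_neBot ρ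
  have lim : ∀ (x : comm (Ext.cmt ρ)) (ω : StrongDual ℂ A),
      Tendsto ω (nb ρ x) (𝓝 ⟪η ω, (x : K →L[ℂ] K) (ξ ω)⟫_ℂ) := fun x ω =>
    (weak_nb ρ x _ _).congr fun a => (h2 ω a).symm
  let t₀ : comm (Ext.cmt ρ) →ₗ[ℂ] StrongDual ℂ A →ₗ[ℂ] ℂ := LinearMap.mk₂ ℂ
    (fun x ω => ⟪η ω, (x : K →L[ℂ] K) (ξ ω)⟫_ℂ)
    (fun x y ω => by rw [AddMemClass.coe_add, add_apply, inner_add_right])
    (fun z x ω => by rw [SetLike.val_smul, smul_apply, inner_smul_right, smul_eq_mul])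
    (fun x ω ω' => tendsto_nhds_unique (lim x (ω + ω')) ((lim x ω).add (lim x ω')))
    (fun z x ω => tendsto_nhds_unique (lim x (z • ω)) ((lim x ω).const_smul z))
  have hb : ∀ x ω, ‖t₀ x ω‖ ≤ 1 * ‖x‖ * ‖ω‖ := fun x ω => by
    refine (norm_inner_le_norm _ _).trans ?_
    have a1 := (x : K →L[ℂ] K).le_opNorm (ξ ω)
    have a2 := mul_le_mul_of_nonneg_left (h1 ω) (norm_nonneg (x : K →L[ℂ] K))
    have a3 := mul_le_mul_of_nonneg_left a1 (norm_nonneg (η ω))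
    rw [one_mul, AddSubgroupClass.coe_norm]
    linarith
  exact ⟨t₀.mkContinuous₂ 1 hb, fun x => ContinuousLinearMap.opNorm_le_bound _ (norm_nonneg _)
    fun ω => (hb x ω).trans_eq (by rw [one_mul]), lim⟩

end Vale.Agent.N082B
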