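import Vale.Agent.N082B.Defs
import Vale.Agent.N082B.Univ
import Vale.Agent.P082.Bd8.B5

/-!
# Iterated limits; vanishing with coefficients in the universal bicommutant
-/

open scoped ComplexOrder InnerProductSpace Topology
open Filter

namespace Vale.Agent.N082B

open Vale.Agent.P104 Vale.Agent.N104J

universe u v w

section Filt

variable {α β Y : Type*} {l : β → Filter α}

/-- the filter of iterated limits -/
def itF (l : β → Filter α) : ∀ n, (Fin n → β) → Filter (Fin n → α)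
  | 0, _ => ⊤
  | n + 1, x => ((l (x 0)).curry (itF l n (Fin.tail x))).map fun p => Fin.cons p.1 p.2

theorem ev_succ {n : ℕ} {x : Fin (n + 1) → β} {P : (Fin (n + 1) → α) → Prop} :
    (∀ᶠ a in itF l (n + 1) x, P a) ↔
      ∀ᶠ b in l (x 0), ∀ᶠ a in itF l n (Fin.tail x), P (Fin.cons b a) := by
  rw [itF, eventually_map, eventually_curry_iff]

theorem itF_neBot (hl : ∀ y, (l y).NeBot) : ∀ n x, (itF l n x).NeBot
  | 0, _ => inferInstanceAs (⊤ : Filter (Fin 0 → α)).NeBot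
  | n + 1, x => by
    have := hl (x 0)
    have := itF_neBot hl n (Fin.tail x)
    rw [← eventually_false_iff_eq_bot.not.trans neBot_iff.symm, ev_succ]
    simpa using this.ne

theorem lim_cons [TopologicalSpace Y] {n : ℕ} {x : Fin (n + 1) → β} {g : (Fin (n + 1) → α) → Y}
    {h : α → Y} {L : Y}
    (h1 : ∀ b, Tendsto (fun a => g (Fin.cons b a)) (itF l n (Fin.tail x)) (𝓝 (h b)))
    (h2 : Tendsto h (l (x 0)) (𝓝 L)) : Tendsto g (itF l (n + 1) x) (𝓝 L) :=
  tendsto_nhds.2 fun _ hs hL => ev_succ.2 ((h2.eventually (hs.mem_nhds hL)).mono fun b hb =>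
    (h1 b).eventually (hs.mem_nhds hb))

theorem ev_snoc : ∀ {n : ℕ} {x : Fin (n + 1) → β} {P : (Fin (n + 1) → α) → Prop},
    (∀ᶠ a in itF l n (Fin.init x), ∀ᶠ b in l (x (Fin.last n)), P (Fin.snoc a b)) →
      ∀ᶠ a in itF l (n + 1) x, P a
  | 0, x, P, h => by
    refine ev_succ.2 ((eventually_top.1 h default).mono fun b hb => eventually_top.2 fun a => ?_)
    convert hb using 1
    ext i
    rw [Fin.fin_one_eq_zero i]
    rfl
  | n + 1, x, P, h => by
    refine ev_succ.2 ((ev_succ.1 h).mono fun b hb => ev_snoc ?_)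
    simp only [Fin.cons_snoc_eq_snoc_cons]
    exact hb

theorem lim_snoc [TopologicalSpace Y] {n : ℕ} {x : Fin (n + 1) → β} {g : (Fin (n + 1) → α) → Y}
    {h : (Fin n → α) → Y} {L : Y}
    (h1 : ∀ a, Tendsto (fun b => g (Fin.snoc a b)) (l (x (Fin.last n))) (𝓝 (h a)))
    (h2 : Tendsto h (itF l n (Fin.init x)) (𝓝 L)) : Tendsto g (itF l (n + 1) x) (𝓝 L) :=
  tendsto_nhds.2 fun _ hs hL => ev_snoc ((h2.eventually (hs.mem_nhds hL)).mono fun a ha =>
    (h1 a).eventually (hs.mem_nhds ha))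

theorem pure_le {r : α → β} (hl : ∀ a, pure a ≤ l (r a)) :
    ∀ n (a : Fin n → α), pure a ≤ itF l n (fun i => r (a i))
  | 0, _ => le_top
  | n + 1, a => fun s hs => by
    have := (pure_le hl n (Fin.tail a)) (hl (a 0) (ev_succ.1 hs))
    rwa [← Fin.cons_self_tail a]

theorem contr_zero [Mul α] {n : ℕ} (a : Fin (n + 2) → α) :
    Fin.contractNth (0 : Fin (n + 1)).castSucc (· * ·) a =
      Fin.cons (a 0 * a 1) (Fin.tail (Fin.tail a)) := by
  ext i
  refine Fin.cases rfl (fun i => ?_) i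
  rw [Fin.contractNth_apply_of_gt _ _ _ _ (by simp)]
  rfl

theorem contr_succ [Mul α] {n : ℕ} (j : Fin n) (a : Fin (n + 2) → α) :
    Fin.contractNth j.succ.castSucc (· * ·) a =
      Fin.cons (a 0) (Fin.contractNth j.castSucc (· * ·) (Fin.tail a)) := by
  ext i
  refine Fin.cases rfl (fun i => ?_) i
  simp only [Fin.contractNth, Fin.cons_succ, Fin.val_succ, Fin.val_castSucc, add_lt_add_iff_right,
    add_left_inj]
  rfl

theorem tendsto_contr [Mul α] [Mul β]
    (hm : ∀ y z, Tendsto (fun p : α × α => p.1 * p.2) ((l y).curry (l z)) (l (y * z))) :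
    ∀ {n : ℕ} (j : Fin n) (x : Fin (n + 1) → β), Tendsto (Fin.contractNth j.castSucc (· * ·))
      (itF l (n + 1) x) (itF l n (Fin.contractNth j.castSucc (· * ·) x))
  | 0, j, _ => j.elim0
  | n + 1, j, x => by
    refine Fin.cases (fun s hs => ?_) (fun j s hs => ?_) j
    · rw [contr_zero] at hs
      have h1 := eventually_curry_iff.1 ((hm (x 0) (x 1)).eventually (ev_succ.1 hs))
      refine ev_succ.2 (h1.mono fun b hb => ev_succ.2 (hb.mono fun c hc => hc.mono fun a ha => ?_))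
      rw [contr_zero]
      exact ha
    · rw [contr_succ] at hs
      refine ev_succ.2 ((ev_succ.1 hs).mono fun b hb =>
        ((tendsto_contr hm j (Fin.tail x)).eventually hb).mono fun a ha => ?_)
      rw [contr_succ]
      exact ha

end Filt

theorem dH_map {A B X Y : Type*} [Mul A] [Mul B] [AddCommGroup X] [AddCommGroup Y]
    {l : A → X → X} {r : X → A → X} {l' : B → Y → Y} {r' : Y → B → Y} (U : B → A) (D : X →+ Y)
    (hU : ∀ a b, U (a * b) = U a * U b) (hl : ∀ b x, D (l (U b) x) = l' b (D x))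
    (hr : ∀ b x, D (r x (U b)) = r' (D x) b) {k : ℕ} (f : (Fin k → A) → X) (b : Fin (k + 1) → B) :
    dH l' r' (fun c => D (f fun i => U (c i))) b = D (dH l r f fun i => U (b i)) := by
  have hc : ∀ j : Fin (k + 1), (fun i => U (Fin.contractNth j (· * ·) b i)) =
      Fin.contractNth j (· * ·) fun i => U (b i) := fun j => funext fun i => by
    simp only [Fin.contractNth]
    split_ifs <;> simp only [hU]
  simp only [dH, map_add, map_sum, map_zsmul, hl, hr, hc]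
  rfl

theorem dH_eq {A : Type*} [Ring A] {k : ℕ} (f : (Fin k → A) → A) (a : Fin (k + 1) → A) :
    dH (· * ·) (· * ·) f a = P082.hochschild f a := by
  have hc : ∀ j : Fin k, Fin.contractNth j.castSucc (· * ·) a = P082.contract j a :=
    fun j => funext fun i => by
      simp only [Fin.contractNth, P082.contract, Fin.val_castSucc, Fin.lt_def, Fin.val_inj]
      split_ifs with h1 h2
      · rfl
      · rw [h2]
      · rfl
  simp only [dH, P082.hochschild, hc, zsmul_eq_mul, Int.cast_pow, Int.cast_neg, Int.cast_one]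
  rfl

theorem vn_vanishes {H : Type v} [NormedAddCommGroup H] [InnerProductSpace ℂ H] [CompleteSpace H]
    (M : VonNeumannAlgebra H) :
    Vanishes M.toStarSubalgebra M.toStarSubalgebra (· * ·) (· * ·) := fun k f hf => by
  simp only [dH_eq] at hf ⊢
  exact P082.VN.kadison_ringrose M k f hf

theorem Vanishes.retract {A X Y : Type*} [NormedRing A] [NormedSpace ℂ A] [NormedAddCommGroup X]
    [NormedSpace ℂ X] [NormedAddCommGroup Y] [NormedSpace ℂ Y] {l : A → X → X} {r : X → A → X}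
    {l' : A → Y → Y} {r' : Y → A → Y} (h : Vanishes A X l r) (s : Y →L[ℂ] X) (θ : X →L[ℂ] Y)
    (e : ∀ y, θ (s y) = y) (s1 : ∀ a y, s (l' a y) = l a (s y)) (s2 : ∀ a y, s (r' y a) = r (s y) a)
    (t1 : ∀ a x, θ (l a x) = l' a (θ x)) (t2 : ∀ a x, θ (r x a) = r' (θ x) a) :
    Vanishes A Y l' r' := fun k f hf => by
  obtain ⟨g, hg⟩ := h k (s.compContinuousMultilinearMap f) fun a =>
    (dH_map id (s : Y →+ X) (fun _ _ => rfl) s1 s2 f a).trans
      ((congrArg s (hf a)).trans (map_zero s))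
  exact ⟨θ.compContinuousMultilinearMap g, fun a =>
    (dH_map id (θ : X →+ Y) (fun _ _ => rfl) t1 t2 g a).trans ((congrArg θ (hg a)).trans (e _))⟩

/-- bounded multilinear forms -/
abbrev Fm (A : Type*) [NormedAddCommGroup A] [NormedSpace ℂ A] (n : ℕ) :=
  ContinuousMultilinearMap ℂ (fun _ : Fin n => A) ℂ

theorem iter_bil {N Q R : Type*} [NormedAddCommGroup N] [NormedSpace ℂ N] [NormedAddCommGroup Q]
    [NormedSpace ℂ Q] [NormedAddCommGroup R] [NormedSpace ℂ R] (Ψ : N →L[ℂ] Q →L[ℂ] R)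
    {n : ℕ} (W : ContinuousMultilinearMap ℂ (fun _ : Fin n => N) Q) :
    ∃ Λ : ContinuousMultilinearMap ℂ (fun _ : Fin (n + 1) => N) R,
      ∀ x, Λ x = Ψ (x 0) (W (Fin.tail x)) :=
  ⟨ContinuousLinearMap.uncurryLeft (Ei := fun _ : Fin (n + 1) => N)
    (((ContinuousLinearMap.compContinuousMultilinearMapL ℂ (fun _ : Fin n => N) Q R).flip W).comp Ψ),
    fun _ => rfl⟩

theorem iter_step {N Z E : Type*} [NormedAddCommGroup N] [NormedSpace ℂ N] [NormedAddCommGroup Z]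
    [NormedSpace ℂ Z] [NormedAddCommGroup E] [NormedSpace ℂ E] (t : N →L[ℂ] E →L[ℂ] ℂ)
    {n : ℕ} (W : ContinuousMultilinearMap ℂ (fun _ : Fin n => N) (Z →L[ℂ] E)) :
    ∃ Λ : ContinuousMultilinearMap ℂ (fun _ : Fin (n + 1) => N) (Z →L[ℂ] ℂ),
      ∀ x f, Λ x f = t (x 0) (W (Fin.tail x) f) := by
  obtain ⟨Λ, h⟩ := iter_bil ((ContinuousLinearMap.compL ℂ Z E ℂ).comp t) W
  exact ⟨Λ, fun x f => by rw [h]; rfl⟩

theorem exists_iter {A N : Type*} [NormedAddCommGroup A] [NormedSpace ℂ A] [NormedAddCommGroup N]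
    [NormedSpace ℂ N] {l : N → Filter A} (t : N →L[ℂ] StrongDual ℂ (StrongDual ℂ A))
    (ht : ∀ x (ω : StrongDual ℂ A), Tendsto ω (l x) (𝓝 (t x ω))) (n : ℕ) :
    ∃ Λ : ContinuousMultilinearMap ℂ (fun _ : Fin n => N) (Fm A n →L[ℂ] ℂ),
      ∀ x (f : Fm A n), Tendsto f (itF l n x) (𝓝 (Λ x f)) := by
  induction n with
  | zero =>
    refine ⟨.constOfIsEmpty ℂ _ (ContinuousMultilinearMap.apply ℂ _ ℂ default), fun x f => ?_⟩
    exact tendsto_const_nhds.congr fun a => congrArg f (Subsingleton.elim _ _)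
  | succ n ih =>
    obtain ⟨Λ, hΛ⟩ := ih
    let c : Fm A (n + 1) →L[ℂ] (A →L[ℂ] Fm A n) :=
      (continuousMultilinearCurryLeftEquiv ℂ (fun _ : Fin (n + 1) => A) ℂ).toContinuousLinearEquiv
    let B : (Fm A n →L[ℂ] ℂ) →L[ℂ] (Fm A (n + 1) →L[ℂ] (A →L[ℂ] ℂ)) :=
      (ContinuousLinearMap.precomp (A →L[ℂ] ℂ) c).comp (ContinuousLinearMap.compL ℂ A (Fm A n) ℂ)
    obtain ⟨Λ', h⟩ := iter_step t (B.compContinuousMultilinearMap Λ)
    refine ⟨Λ', fun x f => ?_⟩
    rw [h]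
    exact lim_cons (fun b => hΛ (Fin.tail x) (f.curryLeft b)) (ht (x 0) (B (Λ (Fin.tail x)) f))

variable {A : Type u} [CStarAlgebra A]
variable {K : Type w} [NormedAddCommGroup K] [InnerProductSpace ℂ K] [CompleteSpace K]

theorem nb_mul (ρ : A →⋆ₐ[ℂ] (K →L[ℂ] K)) (y z : K →L[ℂ] K) :
    Tendsto (fun p : A × A => p.1 * p.2) ((nb ρ y).curry (nb ρ z)) (nb ρ (y * z)) := by
  refine tendsto_comap_iff.2 (tendsto_nhds.2 fun s hs hL => eventually_curry_iff.2 ?_)
  have h1 : Tendsto (fun a ξ => ((ρ a * z) ξ, (star (ρ a * z)) ξ)) (nb ρ y)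
      (𝓝 fun ξ => ((y * z) ξ, (star (y * z)) ξ)) := tendsto_pi_nhds.2 fun ξ => by
    simp only [star_mul, mul_apply_eq_comp]
    exact (ss_nb ρ y _).1.prodMk_nhds (((star z).continuous.tendsto _).comp (ss_nb ρ y ξ).2)
  refine (h1.eventually (hs.mem_nhds hL)).mono fun a ha => ?_
  have h2 : Tendsto (fun b ξ => (ρ (a * b) ξ, (star (ρ (a * b))) ξ)) (nb ρ z)
      (𝓝 fun ξ => ((ρ a * z) ξ, (star (ρ a * z)) ξ)) := tendsto_pi_nhds.2 fun ξ => by
    simp only [map_mul, star_mul, mul_apply_eq_comp]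
    exact (((ρ a).continuous.tendsto _).comp (ss_nb ρ z ξ).1).prodMk_nhds (ss_nb ρ z _).2
  exact h2.eventually (hs.mem_nhds ha)

/-- the representation with values in its bicommutant -/
noncomputable def rp (ρ : A →⋆ₐ[ℂ] (K →L[ℂ] K)) : A →⋆ₐ[ℂ] comm (Ext.cmt ρ) :=
  ρ.codRestrict _ (Ext.rep_mem_comm ρ)

/-- `F` is the iterated weak limit of `f` -/
def IsExt (ρ : A →⋆ₐ[ℂ] (K →L[ℂ] K)) {n : ℕ} (f : (Fin n → A) → comm (Ext.cmt ρ))
    (F : (Fin n → comm (Ext.cmt ρ)) → comm (Ext.cmt ρ)) : Prop :=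
  ∀ x η ξ, Tendsto (fun a => ⟪η, (f a : K →L[ℂ] K) ξ⟫_ℂ)
    (itF (fun y : comm (Ext.cmt ρ) => nb ρ y) n x) (𝓝 ⟪η, (F x : K →L[ℂ] K) ξ⟫_ℂ)

variable {ρ : A →⋆ₐ[ℂ] (K →L[ℂ] K)}

theorem exists_ext (h : Univ ρ) {n : ℕ}
    (f : ContinuousMultilinearMap ℂ (fun _ : Fin n => A) (comm (Ext.cmt ρ))) :
    ∃ F : ContinuousMultilinearMap ℂ (fun _ : Fin n => comm (Ext.cmt ρ)) (comm (Ext.cmt ρ)),
      IsExt ρ f F := by
  obtain ⟨t, -, ht⟩ := exists_t h
  obtain ⟨Λ, hΛ⟩ := exists_iter t ht n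
  obtain ⟨D, hD⟩ := exists_D K
  have nbb := itF_neBot (nb_neBot ρ)
  let f' := (comm (Ext.cmt ρ)).toSubalgebra.toSubmodule.subtypeL.compContinuousMultilinearMap f
  let Φ : StrongDual ℂ (K →L[ℂ] K) →L[ℂ] Fm A n :=
    (ContinuousLinearMap.compContinuousMultilinearMapL ℂ (fun _ : Fin n => A) _ _).flip f'
  let F₀ := (D.comp (ContinuousLinearMap.precomp ℂ Φ)).compContinuousMultilinearMap Λ
  have lim : ∀ x η ξ, Tendsto (fun a => ⟪η, (f a : K →L[ℂ] K) ξ⟫_ℂ)
      (itF (fun y : comm (Ext.cmt ρ) => nb ρ y) n x) (𝓝 ⟪η, F₀ x ξ⟫_ℂ) := fun x η ξ => by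
    have := hΛ x (Φ (vf η ξ))
    rwa [show Λ x (Φ (vf η ξ)) = ⟪η, F₀ x ξ⟫_ℂ from (hD ((Λ x).comp Φ) η ξ).symm] at this
  have mem : ∀ x, F₀ x ∈ comm (Ext.cmt ρ) := fun x => by
    have key : ∀ s : K →L[ℂ] K, (∀ a, s * f a = f a * s) → s * F₀ x = F₀ x * s := fun s hs =>
      op_ext fun η ξ => by
        rw [mul_apply_eq_comp, ← ContinuousLinearMap.adjoint_inner_left]
        refine tendsto_nhds_unique (lim x _ _) ((lim x η (s ξ)).congr fun a => ?_)
        rw [ContinuousLinearMap.adjoint_inner_left, ← mul_apply_eq_comp, ← hs, mul_apply_eq_comp]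
    exact mem_comm_iff.2 fun s hs => ⟨key _ fun a => (mem_comm_iff.1 (f a).2 s hs).1,
      key _ fun a => (mem_comm_iff.1 (f a).2 s hs).2⟩
  exact ⟨F₀.codRestrict (comm (Ext.cmt ρ)).toSubalgebra.toSubmodule mem, lim⟩

theorem IsExt.res {n : ℕ} {f : (Fin n → A) → comm (Ext.cmt ρ)}
    {F : (Fin n → comm (Ext.cmt ρ)) → comm (Ext.cmt ρ)} (h : IsExt ρ f F) (a : Fin n → A) :
    F (fun i => rp ρ (a i)) = f a := Subtype.ext (op_ext fun η ξ => by
  have p := pure_le (l := fun y : comm (Ext.cmt ρ) => nb ρ y) (r := rp ρ)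
    (fun b => tendsto_pure_left.1 (tendsto_nb.2 (SS.const (pure b) _) :
      Tendsto (fun _ => b) (pure b) (nb ρ (ρ b)))) n a
  exact tendsto_nhds_unique ((h _ η ξ).mono_left p) (tendsto_pure_nhds _ a))

theorem IsExt.cocycle {k : ℕ} {f : (Fin k → A) → comm (Ext.cmt ρ)}
    {F : (Fin k → comm (Ext.cmt ρ)) → comm (Ext.cmt ρ)} (lim : IsExt ρ f F) :
    IsExt ρ (dH (fun a x => rp ρ a * x) (fun x a => x * rp ρ a) f) (dH (· * ·) (· * ·) F) := by
  intro x η ξ
  let v : comm (Ext.cmt ρ) →+ ℂ :=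
    { toFun := fun y => ⟪η, (y : K →L[ℂ] K) ξ⟫_ℂ
      map_zero' := by simp
      map_add' := fun y z => by rw [AddMemClass.coe_add, add_apply, inner_add_right] }
  have t1 : Tendsto (fun a => v (rp ρ (a 0) * f (Fin.tail a)))
      (itF (fun y : comm (Ext.cmt ρ) => nb ρ y) (k + 1) x) (𝓝 (v (x 0 * F (Fin.tail x)))) := by
    refine lim_cons (fun b => ?_) (weak_nb ρ (x 0) η ((F (Fin.tail x) : K →L[ℂ] K) ξ))
    have := lim (Fin.tail x) ((ρ b).adjoint η) ξ
    simp only [ContinuousLinearMap.adjoint_inner_left] at this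
    exact this
  have t2 : ∀ j : Fin k, Tendsto (fun a => v (f (Fin.contractNth j.castSucc (· * ·) a)))
      (itF (fun y : comm (Ext.cmt ρ) => nb ρ y) (k + 1) x)
      (𝓝 (v (F (Fin.contractNth j.castSucc (· * ·) x)))) := fun j =>
    (lim _ η ξ).comp (tendsto_contr (l := fun y : comm (Ext.cmt ρ) => nb ρ y)
      (fun y z => nb_mul ρ y z) j x)
  have t3 : Tendsto (fun a => v (f (Fin.init a) * rp ρ (a (Fin.last k))))
      (itF (fun y : comm (Ext.cmt ρ) => nb ρ y) (k + 1) x)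
      (𝓝 (v (F (Fin.init x) * x (Fin.last k)))) := by
    refine lim_snoc (fun a => ?_) (lim (Fin.init x) η ((x (Fin.last k) : K →L[ℂ] K) ξ))
    simp only [Fin.init_snoc, Fin.snoc_last]
    have := weak_nb ρ (x (Fin.last k)) ((f a : K →L[ℂ] K).adjoint η) ξ
    simp only [ContinuousLinearMap.adjoint_inner_left] at this
    exact this
  change Tendsto (fun a => v _) _ (𝓝 (v _))
  simp only [dH, map_add, map_sum, map_zsmul]
  exact (t1.add (tendsto_finsetSum _ fun j _ => (t2 j).const_smul _)).add (t3.const_smul _)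

theorem univ_vanishes (h : Univ ρ) :
    Vanishes A (comm (Ext.cmt ρ)) (fun a x => rp ρ a * x) (fun x a => x * rp ρ a) := by
  intro k f hf
  obtain ⟨F, lim⟩ := exists_ext h f
  have hv : Vanishes (comm (Ext.cmt ρ)) (comm (Ext.cmt ρ)) (· * ·) (· * ·) :=
    vn_vanishes (vnOf (Ext.cmt ρ))
  have hc : ∀ x, dH (· * ·) (· * ·) F x = 0 := fun x => Subtype.ext (op_ext fun η ξ => by
    have := itF_neBot (nb_neBot ρ) _ x
    exact tendsto_nhds_unique (lim.cocycle x η ξ) (tendsto_const_nhds.congr fun a => by rw [hf]))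
  obtain ⟨G, hG⟩ := hv k F hc
  let r : A →L[ℂ] comm (Ext.cmt ρ) := (rp ρ).toAlgHom.toLinearMap.mkContinuous 1 fun a => by
    rw [one_mul]; exact NonUnitalStarAlgHom.norm_apply_le (rp ρ) a
  refine ⟨G.compContinuousLinearMap fun _ => r, fun a => ?_⟩
  rw [← lim.res, ← hG]
  exact dH_map (l := (· * ·)) (r := (· * ·)) (rp ρ) (AddMonoidHom.id _) (map_mul _)
    (fun _ _ => rfl) (fun _ _ => rfl) G a

end Vale.Agent.N082B
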