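import Vale.Agent.N104J.Inj

/-!
# Projections of norm one onto C*-subalgebras are bimodule maps
-/

open scoped ComplexOrder ComplexStarModule Real

namespace Vale.Agent.N082B

open Vale.Agent.N104J

theorem fin_vals {R E : Type*} [CommRing R] [Algebra ℝ R] [AddCommGroup E] [Module ℝ E]
    (Φ : R →ₗ[ℝ] R →ₗ[ℝ] E) (h : ∀ f g, f * g = 0 → Φ f g = 0) (g : R) (Λ : Finset ℝ) :
    ∀ f, f * ∏ c ∈ Λ, (g - algebraMap ℝ R c) = 0 → Φ (f * g) 1 = Φ f g := by
  classical
  induction Λ using Finset.strongInduction with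
  | H Λ ih =>
    intro f hf
    rcases Λ.eq_empty_or_nonempty with rfl | hne
    · rw [Finset.prod_empty, mul_one] at hf
      simp [hf]
    rcases hne.exists_eq_singleton_or_nontrivial with ⟨c, rfl⟩ | ⟨c, hc, d, hd, hcd⟩
    · rw [Finset.prod_singleton] at hf
      have a1 := h _ _ hf
      rw [Algebra.algebraMap_eq_smul_one] at a1 hf
      rw [map_sub, map_smul, sub_eq_zero] at a1
      rw [mul_sub, mul_smul_comm, mul_one, sub_eq_zero] at hf
      rw [hf, a1, map_smul, LinearMap.smul_apply]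
    · have k : ∀ c ∈ Λ, Φ (f * (g - algebraMap ℝ R c) * g) 1 = Φ (f * (g - algebraMap ℝ R c)) g :=
        fun c hc => ih _ (Finset.erase_ssubset hc) _ (by
          rw [mul_assoc, Finset.mul_prod_erase Λ (fun c => g - algebraMap ℝ R c) hc, hf])
      have a1 := k c hc
      have a2 := k d hd
      simp only [Algebra.algebraMap_eq_smul_one, mul_sub, sub_mul, mul_smul_comm, mul_one,
        smul_mul_assoc, map_sub, map_smul, LinearMap.sub_apply, LinearMap.smul_apply] at a1 a2
      refine smul_right_injective E (sub_ne_zero.2 hcd) ?_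
      linear_combination (norm := module) a2 - a1

theorem prop_B {X E : Type*} [TopologicalSpace X] [CompactSpace X] [NormedAddCommGroup E]
    [NormedSpace ℝ E] (Φ : C(X, ℝ) →ₗ[ℝ] C(X, ℝ) →ₗ[ℝ] E) {C : ℝ} (hC : 0 ≤ C)
    (hb : ∀ f g, ‖Φ f g‖ ≤ C * ‖f‖ * ‖g‖) (h : ∀ f g, f * g = 0 → Φ f g = 0) (u : C(X, ℝ)) :
    Φ u 1 = Φ 1 u := by
  have key : ∀ ε : ℝ, 0 < ε → ∀ s : ℝ, ∃ f : C(X, ℝ),
      (∀ x, f x = max (Real.cos (u x / ε - s)) 0 ^ 2) ∧ ‖Φ (f * u) 1 - Φ f u‖ ≤ 4 * C * ε := by
    intro ε hε s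
    let f : C(X, ℝ) := ⟨fun x => max (Real.cos (u x / ε - s)) 0 ^ 2, by fun_prop⟩
    let d : C(X, ℝ) := ⟨fun x => ε * Real.arcsin (Real.sin (u x / ε - s)), by fun_prop⟩
    have nf : ‖f‖ ≤ 1 := (ContinuousMap.norm_le _ zero_le_one).2 fun x => by
      change ‖max (Real.cos (u x / ε - s)) 0 ^ 2‖ ≤ 1
      rw [Real.norm_of_nonneg (sq_nonneg _)]
      exact pow_le_one₀ (le_max_right _ _) (max_le (Real.cos_le_one _) zero_le_one)
    have bd : ∀ x, |d x| ≤ 2 * ε := fun x => by
      change |ε * Real.arcsin (Real.sin (u x / ε - s))| ≤ _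
      rw [abs_mul, abs_of_pos hε, mul_comm]
      refine mul_le_mul_of_nonneg_right (abs_le.2 ⟨?_, ?_⟩) hε.le
      · linarith [Real.neg_pi_div_two_le_arcsin (Real.sin (u x / ε - s)), Real.pi_le_four]
      · linarith [Real.arcsin_le_pi_div_two (Real.sin (u x / ε - s)), Real.pi_le_four]
    have nd : ‖d‖ ≤ 2 * ε := (ContinuousMap.norm_le _ (by positivity)).2 bd
    have n1 : ‖(1 : C(X, ℝ))‖ ≤ 1 := (ContinuousMap.norm_le _ zero_le_one).2 fun x => by simp
    obtain ⟨m, hm⟩ := exists_nat_ge (‖u‖ / ε + 2 + |s|)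
    have e := fin_vals Φ h (u - d) ((Finset.Icc (-m : ℤ) m).image fun k : ℤ => ε * (s + 2 * π * k)) f
      (ContinuousMap.ext fun x => by
        rw [ContinuousMap.mul_apply, ContinuousMap.prod_apply, ContinuousMap.zero_apply]
        rcases le_total (Real.cos (u x / ε - s)) 0 with hc | hc
        · rw [show f x = 0 by simp [f, hc], zero_mul]
        · obtain ⟨k, hk⟩ := Real.Angle.angle_eq_iff_two_pi_dvd_sub.1 (Real.Angle.cos_sin_inj
            (θ := u x / ε - s) (ψ := Real.arcsin (Real.sin (u x / ε - s)))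
            (by rw [Real.cos_arcsin, ← Real.abs_cos_eq_sqrt_one_sub_sin_sq, abs_of_nonneg hc])
            (Real.sin_arcsin (Real.neg_one_le_sin _) (Real.sin_le_one _)).symm)
          have a1 : u x - d x = ε * (s + 2 * π * k) := by
            change u x - ε * _ = _
            rw [← hk]; field_simp; ring
          have a2 : |(k : ℝ)| ≤ m := by
            have b1 : |u x / ε| ≤ ‖u‖ / ε := by
              rw [abs_div, abs_of_pos hε]
              exact div_le_div_of_nonneg_right (u.norm_coe_le_norm x) hε.le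
            have b2 := Real.neg_pi_div_two_le_arcsin (Real.sin (u x / ε - s))
            have b3 := Real.arcsin_le_pi_div_two (Real.sin (u x / ε - s))
            have b4 : |2 * π * k| ≤ m := by
              rw [← hk, abs_le] at *
              constructor <;> linarith [Real.pi_le_four, le_abs_self s, neg_abs_le s]
            rw [abs_mul, abs_of_pos Real.two_pi_pos] at b4
            nlinarith [Real.pi_gt_three, abs_nonneg (k : ℝ)]
          refine mul_eq_zero_of_right _ (Finset.prod_eq_zero (Finset.mem_image_of_mem _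
            (Finset.mem_Icc.2 (abs_le.1 (show |k| ≤ (m : ℤ) by exact_mod_cast a2)))) ?_)
          simp [a1])
    refine ⟨f, fun _ => rfl, ?_⟩
    have e2 : Φ (f * u) 1 - Φ f u = Φ (f * d) 1 - Φ f d := by
      rw [mul_sub, map_sub, map_sub, LinearMap.sub_apply] at e
      linear_combination (norm := abel) e
    have b1 : ‖Φ (f * d) 1‖ ≤ C * (1 * (2 * ε)) * 1 := (hb _ _).trans (by
      gcongr
      exact (norm_mul_le _ _).trans (by gcongr))
    have b2 : ‖Φ f d‖ ≤ C * 1 * (2 * ε) := (hb _ _).trans (by gcongr)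
    rw [e2]
    linarith [norm_sub_le (Φ (f * d) 1) (Φ f d)]
  refine sub_eq_zero.1 (norm_le_zero_iff.1 (le_of_forall_pos_le_add fun δ hδ => ?_))
  have hε : 0 < δ / (16 * C + 1) := by positivity
  obtain ⟨f₁, e₁, b₁⟩ := key _ hε 0
  obtain ⟨f₂, e₂, b₂⟩ := key _ hε π
  obtain ⟨f₃, e₃, b₃⟩ := key _ hε (π / 2)
  obtain ⟨f₄, e₄, b₄⟩ := key _ hε (-(π / 2))
  have sq : ∀ y : ℝ, max y 0 ^ 2 + max (-y) 0 ^ 2 = y ^ 2 := fun y => by
    rcases le_total y 0 with h | h <;> simp [h]
  have one : f₁ + f₂ + (f₃ + f₄) = 1 := ContinuousMap.ext fun x => by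
    simp only [ContinuousMap.add_apply, e₁, e₂, e₃, e₄, sub_zero, Real.cos_sub_pi,
      Real.cos_sub_pi_div_two, sub_neg_eq_add, Real.cos_add_pi_div_two, sq,
      ContinuousMap.one_apply, Real.cos_sq_add_sin_sq]
  have e : Φ u 1 - Φ 1 u = (Φ (f₁ * u) 1 - Φ f₁ u) + (Φ (f₂ * u) 1 - Φ f₂ u) +
      ((Φ (f₃ * u) 1 - Φ f₃ u) + (Φ (f₄ * u) 1 - Φ f₄ u)) := by
    have a1 := congrArg (fun f => Φ (f * u) 1 - Φ f u) one
    simp only [add_mul, map_add, LinearMap.add_apply, one_mul] at a1
    rw [← a1]; abel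
  have a2 : 16 * C * (δ / (16 * C + 1)) ≤ δ := by
    rw [mul_div_assoc', div_le_iff₀ (by positivity)]; nlinarith
  rw [e]
  refine (norm_add_le _ _).trans ((add_le_add (norm_add_le _ _) (norm_add_le _ _)).trans ?_)
  linarith

variable {A N : Type*} [CStarAlgebra A] [CStarAlgebra N]

/-- a contraction that is a left inverse of a star homomorphism -/
structure Retr (ρ : A →⋆ₐ[ℂ] N) (Q : N →L[ℂ] A) : Prop where
  le : ∀ x, ‖Q x‖ ≤ ‖x‖
  fix : ∀ a, Q (ρ a) = a

variable {ρ : A →⋆ₐ[ℂ] N} {Q : N →L[ℂ] A}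

theorem Retr.off (h : Retr ρ Q) {a b : A} (hab : a * b = 0) (x : N) : a * Q (ρ b * x) = 0 := by
  let _ : PartialOrder A := CStarAlgebra.spectralOrder A
  have _ : StarOrderedRing A := CStarAlgebra.spectralOrderedRing A
  obtain ⟨z, hz⟩ : ∃ z, z = Q (ρ b * x) := ⟨_, rfl⟩
  obtain ⟨p, hp⟩ : ∃ p, p = star a * a := ⟨_, rfl⟩
  obtain ⟨C, hC⟩ : ∃ C, C = ‖a * star a‖ := ⟨_, rfl⟩
  have C0 : 0 ≤ C := hC ▸ norm_nonneg _
  have p0 : 0 ≤ p := hp ▸ star_mul_self_nonneg a
  have ps : star p = p := (IsSelfAdjoint.of_nonneg p0).star_eq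
  have pp : p * p ≤ C • p := by
    have := CStarAlgebra.star_left_conjugate_le_norm_smul (a := a) (IsSelfAdjoint.mul_star_self a)
    rwa [← hC, ← mul_assoc, mul_assoc, ← hp] at this
  have o : star (ρ b * x) * ρ (p * z) = 0 := by
    rw [star_mul, ← map_star, mul_assoc, ← map_mul, hp, ← mul_assoc, ← mul_assoc, ← star_mul, hab]
    simp
  have o' : star (ρ (p * z)) * (ρ b * x) = 0 := by
    simpa only [star_mul (star _), star_star, star_zero] using congrArg star o
  have : ‖p * z‖ ^ 2 = 0 := by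
    refine small (sq_nonneg _) (b := C * ‖ρ b * x‖ ^ 2) fun t ht => ?_
    have a1 : ‖z + t • (p * z)‖ ≤ ‖ρ b * x + (t : ℂ) • ρ (p * z)‖ := by
      have := h.le (ρ b * x + (t : ℂ) • ρ (p * z))
      rwa [map_add, map_smul, h.fix, ← hz, Complex.coe_smul] at this
    have a2 := norm_add_sq_le (a := ρ b * x) (b := (t : ℂ) • ρ (p * z)) (by
      rw [star_smul, mul_smul_comm, smul_mul_assoc, o, o', smul_zero, smul_zero, add_zero])
    rw [norm_smul, Complex.norm_real, Real.norm_of_nonneg ht] at a2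
    have a3 := NonUnitalStarAlgHom.norm_apply_le ρ (p * z)
    have a4 : (C * t ^ 2 + 2 * t) • (p * p) ≤ C • (star (1 + t • p) * (1 + t • p)) := by
      have e : C • (star (1 + t • p) * (1 + t • p)) - (C * t ^ 2 + 2 * t) • (p * p) =
          C • (1 : A) + (2 * t) • (C • p - p * p) := by
        simp only [star_add, star_one, star_smul, star_trivial, ps, add_mul, mul_add, one_mul,
          mul_one, smul_mul_assoc, mul_smul_comm]
        module
      rw [← sub_nonneg, e]
      exact add_nonneg (smul_nonneg C0 zero_le_one) (smul_nonneg (by positivity) (sub_nonneg.2 pp))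
    have a5 := star_left_conjugate_le_conjugate a4 z
    have e1 : star z * (C * t ^ 2 + 2 * t) • (p * p) * z =
        (C * t ^ 2 + 2 * t) • (star (p * z) * (p * z)) := by
      simp only [star_mul, ps, mul_smul_comm, smul_mul_assoc, mul_assoc]
    have e2 : star z * C • (star (1 + t • p) * (1 + t • p)) * z =
        C • (star (z + t • (p * z)) * (z + t • (p * z))) := by
      rw [show z + t • (p * z) = (1 + t • p) * z by rw [add_mul, one_mul, smul_mul_assoc]]
      simp only [star_mul, mul_smul_comm, smul_mul_assoc, mul_assoc]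
    rw [e1, e2] at a5
    have a6 := CStarAlgebra.norm_le_norm_of_nonneg_of_le
      (smul_nonneg (by positivity) (star_mul_self_nonneg _)) a5
    rw [norm_smul, norm_smul, CStarRing.norm_star_mul_self, CStarRing.norm_star_mul_self,
      Real.norm_of_nonneg C0, Real.norm_of_nonneg (by positivity), ← sq, ← sq] at a6
    have a7 := (pow_le_pow_left₀ (norm_nonneg _) a1 2).trans a2
    have a8 : (t * ‖ρ (p * z)‖) ^ 2 ≤ (t * ‖p * z‖) ^ 2 := by gcongr
    have a9 := mul_le_mul_of_nonneg_left (a7.trans (add_le_add le_rfl a8)) C0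
    nlinarith [mul_nonneg ht (sq_nonneg ‖p * z‖)]
  have a1 : p * z = 0 := by simpa using this
  rw [← hz, ← CStarRing.star_mul_self_eq_zero_iff, star_mul, mul_assoc, ← mul_assoc (star a), ← hp,
    a1, mul_zero]

theorem Retr.left (h : Retr ρ Q) (a : A) (x : N) : Q (ρ a * x) = a * Q x := by
  have sa : ∀ y : A, IsSelfAdjoint y → Q (ρ y * x) = y * Q x := fun y hy => by
    let Φ : C(spectrum ℝ y, ℝ) →ₗ[ℝ] C(spectrum ℝ y, ℝ) →ₗ[ℝ] A := LinearMap.mk₂ ℝ
      (fun f g => cfcHom hy f * Q (ρ (cfcHom hy g) * x))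
      (fun _ _ _ => by rw [map_add, add_mul]) (fun _ _ _ => by rw [map_smul, smul_mul_assoc])
      (fun _ _ _ => by rw [map_add, map_add, add_mul, map_add, mul_add])
      (fun c _ _ => by
        rw [map_smul, ← Complex.coe_smul, map_smul, smul_mul_assoc, map_smul, mul_smul_comm,
          Complex.coe_smul])
    have := prop_B Φ (norm_nonneg x) (fun f g => by
      refine (norm_mul_le _ _).trans ?_
      have a1 := (h.le _).trans ((norm_mul_le (ρ (cfcHom hy g)) x).trans
        (mul_le_mul_of_nonneg_right (NonUnitalStarAlgHom.norm_apply_le ρ _) (norm_nonneg _)))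
      rw [norm_cfcHom y g hy] at a1
      rw [norm_cfcHom y f hy]
      exact (mul_le_mul_of_nonneg_left a1 (norm_nonneg _)).trans_eq (by ring))
      (fun f g e => h.off (by rw [← map_mul, e, map_zero]) x)
      ((ContinuousMap.id ℝ).restrict _)
    simp only [Φ, LinearMap.mk₂_apply, cfcHom_id, map_one, one_mul] at this
    exact this.symm
  rw [re_im a]
  simp only [map_add, map_smul, add_mul, smul_mul_assoc, sa _ (ℜ a).2, sa _ (ℑ a).2]

theorem Retr.right (h : Retr ρ Q) (a : A) (x : N) : Q (x * ρ a) = Q x * a := by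
  let Q' : N →L[ℂ] A := LinearMap.mkContinuous
    { toFun := fun x => star (Q (star x))
      map_add' := fun x y => by simp only [star_add, map_add]
      map_smul' := fun z x => by simp only [star_smul, map_smul, star_star, RingHom.id_apply] } 1
    fun x => by simpa using h.le (star x)
  have h' : Retr ρ Q' := ⟨fun x => by simpa [Q'] using h.le (star x),
    fun a => by simp [Q', ← map_star, h.fix]⟩
  have := congrArg star (h'.left (star a) (star x))
  simpa [Q', map_star] using this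

end Vale.Agent.N082B
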