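import Vale.Agent.N082B.Iter
import Vale.Agent.N082B.Tom

/-!
# Coefficients in the bidual; complemented C*-algebras; W*-algebras
-/

open scoped ComplexOrder InnerProductSpace Topology
open Filter

namespace Vale.Agent.N082B

open Vale.Agent.P104 Vale.Agent.N104J

universe u v w

variable {A : Type u} [CStarAlgebra A]
variable {K : Type w} [NormedAddCommGroup K] [InnerProductSpace ℂ K] [CompleteSpace K]

/-- a star homomorphism as a bounded linear map -/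
noncomputable def clm {B : Type*} [CStarAlgebra B] (ρ : A →⋆ₐ[ℂ] B) : A →L[ℂ] B :=
  ρ.toAlgHom.toLinearMap.mkContinuous 1 fun a => by
    rw [one_mul]; exact NonUnitalStarAlgHom.norm_apply_le ρ a

/-- vector functionals of a representation -/
noncomputable def vr (ρ : A →⋆ₐ[ℂ] (K →L[ℂ] K)) (η ξ : K) : StrongDual ℂ A := (vf η ξ).comp (clm ρ)

theorem vr_apply (ρ : A →⋆ₐ[ℂ] (K →L[ℂ] K)) (η ξ : K) (a : A) : vr ρ η ξ a = ⟪η, ρ a ξ⟫_ℂ := rfl

variable {ρ : A →⋆ₐ[ℂ] (K →L[ℂ] K)}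

theorem vr_left (η ξ : K) (a : A) :
    (vr ρ η ξ).comp (ContinuousLinearMap.mul ℂ A a) = vr ρ ((ρ a).adjoint η) ξ := by
  ext b
  change ⟪η, ρ (a * b) ξ⟫_ℂ = _
  rw [vr_apply, ContinuousLinearMap.adjoint_inner_left, map_mul, mul_apply_eq_comp]

theorem vr_right (η ξ : K) (a : A) :
    (vr ρ η ξ).comp ((ContinuousLinearMap.mul ℂ A).flip a) = vr ρ η (ρ a ξ) := by
  ext b
  change ⟪η, ρ (b * a) ξ⟫_ℂ = _
  rw [vr_apply, map_mul, mul_apply_eq_comp]

theorem Univ.ext (h : Univ ρ) {F G : StrongDual ℂ (StrongDual ℂ A)}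
    (e : ∀ η ξ, F (vr ρ η ξ) = G (vr ρ η ξ)) : F = G := by
  ext ω
  obtain ⟨ξ, η, -, h2⟩ := h ω
  rw [show ω = vr ρ η ξ from ContinuousLinearMap.ext h2, e]

theorem exists_t' (h : Univ ρ) :
    ∃ t : comm (Ext.cmt ρ) →L[ℂ] StrongDual ℂ (StrongDual ℂ A), (∀ x, ‖t x‖ ≤ ‖x‖) ∧
      ∀ x η ξ, t x (vr ρ η ξ) = ⟪η, (x : K →L[ℂ] K) ξ⟫_ℂ := by
  obtain ⟨t, h1, h2⟩ := exists_t h
  have := nb_neBot ρ
  exact ⟨t, h1, fun x η ξ => tendsto_nhds_unique (h2 x _) (weak_nb ρ x η ξ)⟩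

theorem star_cmt {s : K →L[ℂ] K} (hs : s ∈ Ext.cmt ρ) : star s ∈ Ext.cmt ρ := fun a => by
  simpa only [star_mul, ← map_star, star_star] using (congrArg star (hs (star a))).symm

theorem mem_bicomm {T : K →L[ℂ] K} (h : ∀ s ∈ Ext.cmt ρ, s * T = T * s) : T ∈ comm (Ext.cmt ρ) :=
  mem_comm_iff.2 fun s hs => ⟨h s hs, h _ (star_cmt hs)⟩

theorem bidual_vanishes (A : Type u) [CStarAlgebra A] :
    Vanishes A (StrongDual ℂ (StrongDual ℂ A))
      (fun a F => F.comp (ContinuousLinearMap.precomp ℂ (ContinuousLinearMap.mul ℂ A a)))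
      (fun F a => F.comp (ContinuousLinearMap.precomp ℂ ((ContinuousLinearMap.mul ℂ A).flip a))) := by
  obtain ⟨K, _, _, _, ρ, h⟩ := exists_univ A
  obtain ⟨t, -, ht⟩ := exists_t' h
  obtain ⟨D, hD⟩ := exists_D K
  let T₀ : StrongDual ℂ (StrongDual ℂ A) →L[ℂ] (K →L[ℂ] K) :=
    D.comp (ContinuousLinearMap.precomp ℂ (ContinuousLinearMap.precomp ℂ (clm ρ)))
  have h0 : ∀ F η ξ, ⟪η, T₀ F ξ⟫_ℂ = F (vr ρ η ξ) := fun F η ξ => hD _ η ξ
  have mem : ∀ F, T₀ F ∈ comm (Ext.cmt ρ) := fun F => mem_bicomm fun s hs => op_ext fun η ξ => by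
    rw [mul_apply_eq_comp, ← ContinuousLinearMap.adjoint_inner_left, mul_apply_eq_comp, h0, h0]
    congr 1
    ext a
    rw [vr_apply, vr_apply, ContinuousLinearMap.adjoint_inner_left, ← mul_apply_eq_comp, hs,
      mul_apply_eq_comp]
  let T : StrongDual ℂ (StrongDual ℂ A) →L[ℂ] comm (Ext.cmt ρ) :=
    T₀.codRestrict (comm (Ext.cmt ρ)).toSubalgebra.toSubmodule mem
  have h1 : ∀ F η ξ, ⟪η, (T F : K →L[ℂ] K) ξ⟫_ℂ = F (vr ρ η ξ) := h0
  refine (univ_vanishes h).retract T t (fun F => h.ext fun η ξ => by rw [ht, h1])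
    (fun a F => Subtype.ext (op_ext fun η ξ => ?_)) (fun a F => Subtype.ext (op_ext fun η ξ => ?_))
    (fun a x => h.ext fun η ξ => ?_) (fun a x => h.ext fun η ξ => ?_)
  · rw [h1]
    change F ((vr ρ η ξ).comp _) = ⟪η, ρ a ((T F : K →L[ℂ] K) ξ)⟫_ℂ
    rw [vr_left, ← h1, ContinuousLinearMap.adjoint_inner_left]
  · rw [h1]
    change F ((vr ρ η ξ).comp _) = ⟪η, (T F : K →L[ℂ] K) (ρ a ξ)⟫_ℂ
    rw [vr_right, h1]
  · rw [ht]
    change ⟪η, ρ a ((x : K →L[ℂ] K) ξ)⟫_ℂ = t x ((vr ρ η ξ).comp _)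
    rw [vr_left, ht, ContinuousLinearMap.adjoint_inner_left]
  · rw [ht]
    change ⟪η, (x : K →L[ℂ] K) (ρ a ξ)⟫_ℂ = t x ((vr ρ η ξ).comp _)
    rw [vr_right, ht]

theorem Retr.vanishes {N : Type*} [CStarAlgebra N] {r : A →⋆ₐ[ℂ] N} {Q : N →L[ℂ] A} (h : Retr r Q)
    (hv : Vanishes A N (fun a x => r a * x) (fun x a => x * r a)) :
    Vanishes A A (· * ·) (· * ·) :=
  hv.retract (clm r) Q h.fix (fun a b => map_mul r a b) (fun a b => map_mul r b a) h.left
    h.right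

theorem compl_vanishes (P : StrongDual ℂ (StrongDual ℂ A) →L[ℂ] A) (h1 : ∀ F, ‖P F‖ ≤ ‖F‖)
    (h2 : ∀ a, P (NormedSpace.inclusionInDoubleDual ℂ A a) = a) : Vanishes A A (· * ·) (· * ·) := by
  obtain ⟨K, _, _, _, ρ, h⟩ := exists_univ A
  obtain ⟨t, n, ht⟩ := exists_t' h
  refine Retr.vanishes (Q := P.comp t) ⟨fun x => (h1 _).trans (n x), fun a => ?_⟩ (univ_vanishes h)
  exact (congrArg P (h.ext fun η ξ => ht (rp ρ a) η ξ)).trans (h2 a)

theorem wstar_vanishes (W : Type u) [CStarAlgebra W] [WStarAlgebra W] :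
    Vanishes W W (· * ·) (· * ·) := by
  obtain ⟨X, _, _, _, ⟨e⟩⟩ := WStarAlgebra.exists_predual (M := W)
  have b1 : ∀ (x : X) (m : W), ‖star (e.symm m x)‖ ≤ ‖x‖ * ‖m‖ := fun x m => by
    rw [norm_star, ← e.symm.norm_map m, mul_comm]
    exact (e.symm m).le_opNorm x
  let ω : X → StrongDual ℂ W := fun x => LinearMap.mkContinuous
    { toFun := fun m => star (e.symm m x)
      map_add' := fun m m' => by rw [map_add, add_apply, star_add]
      map_smul' := fun z m => by rw [e.symm.map_smulₛₗ]; simp } _ (b1 x)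
  have hω : ∀ x m, ω x m = star (e.symm m x) := fun _ _ => rfl
  have b2 : ∀ (F : StrongDual ℂ (StrongDual ℂ W)) (x : X), ‖star (F (ω x))‖ ≤ ‖F‖ * ‖x‖ :=
    fun F x => by
      rw [norm_star]
      exact F.le_of_opNorm_le_of_le le_rfl (LinearMap.mkContinuous_norm_le _ (norm_nonneg _) _)
  let φ : StrongDual ℂ (StrongDual ℂ W) → StrongDual ℂ X := fun F => LinearMap.mkContinuous
    { toFun := fun x => star (F (ω x))
      map_add' := fun x y => by
        rw [← star_add, ← map_add]; congr 2; ext m; simp [hω]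
      map_smul' := fun z x => by
        rw [show ω (z • x) = star z • ω x by ext m; simp [hω]]; simp } _ (b2 F)
  have hφ : ∀ F x, φ F x = star (F (ω x)) := fun _ _ => rfl
  have b3 : ∀ F, ‖e (φ F)‖ ≤ 1 * ‖F‖ := fun F => by
    rw [e.norm_map, one_mul]
    exact LinearMap.mkContinuous_norm_le _ (norm_nonneg F) _
  refine compl_vanishes (LinearMap.mkContinuous
    { toFun := fun F => e (φ F)
      map_add' := fun F G => by
        rw [← map_add]; congr 1; ext x; simp [hφ]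
      map_smul' := fun z F => by
        rw [show φ (z • F) = star z • φ F by ext x; simp [hφ], e.map_smulₛₗ]; simp } 1 b3)
    (fun F => (b3 F).trans_eq (one_mul _)) fun a => ?_
  change e (φ _) = a
  rw [← e.apply_symm_apply a]
  congr 1
  ext x
  simp [hφ, hω, NormedSpace.dual_def]

end Vale.Agent.N082B
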