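import Vale.Agent.N082B.Main

/-!
# Coefficients in the von Neumann algebra generated by a representation
-/

open scoped ComplexOrder InnerProductSpace Topology
open Filter

namespace Vale.Agent.N082B

open Vale.Agent.P104 Vale.Agent.N104J

universe u v w

variable {A : Type u} [CStarAlgebra A]
variable {H : Type v} [NormedAddCommGroup H] [InnerProductSpace ℂ H] [CompleteSpace H]
variable {K : Type w} [NormedAddCommGroup K] [InnerProductSpace ℂ K] [CompleteSpace K]

/-- direct sum of two representations -/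
noncomputable def sumRep (π : A →⋆ₐ[ℂ] (H →L[ℂ] H)) (ρ : A →⋆ₐ[ℂ] (K →L[ℂ] K)) :
    A →⋆ₐ[ℂ] (WithLp 2 (H × K) →L[ℂ] WithLp 2 (H × K)) where
  toFun a := (WithLp.prodContinuousLinearEquiv 2 ℂ H K).symm.toContinuousLinearMap ∘L
    (π a).prodMap (ρ a) ∘L (WithLp.prodContinuousLinearEquiv 2 ℂ H K).toContinuousLinearMap
  map_one' := by ext x : 1; simp
  map_mul' a b := by ext x : 1; simp [Prod.map]
  map_zero' := by ext x : 1; simp [Prod.map]
  map_add' a b := by ext x : 1; simp [Prod.map, ← WithLp.toLp_add]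
  commutes' z := by ext x : 1; simp [Prod.map, Algebra.algebraMap_eq_smul_one]; rfl
  map_star' a := by
    rw [ContinuousLinearMap.star_eq_adjoint, ContinuousLinearMap.eq_adjoint_iff]
    intro x y
    simp [Prod.map, map_star, ContinuousLinearMap.star_eq_adjoint,
      ContinuousLinearMap.adjoint_inner_left]

theorem exists_univ' (π : A →⋆ₐ[ℂ] (H →L[ℂ] H)) :
    ∃ (K : Type (max u v)) (_ : NormedAddCommGroup K) (_ : InnerProductSpace ℂ K)
      (_ : CompleteSpace K) (ρ : A →⋆ₐ[ℂ] (K →L[ℂ] K)) (V : H →L[ℂ] K), Univ ρ ∧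
      (∀ a h, ρ a (V h) = V (π a h)) ∧ ∀ h k, ⟪V h, V k⟫_ℂ = ⟪h, k⟫_ℂ := by
  obtain ⟨K, _, _, _, ρ, h⟩ := exists_univ A
  refine ⟨WithLp 2 (H × K), inferInstance, inferInstance, inferInstance, sumRep π ρ,
    (WithLp.prodContinuousLinearEquiv 2 ℂ H K).symm.toContinuousLinearMap ∘L .inl ℂ H K,
    fun ω => ?_, fun a h => ?_, fun h k => by simp⟩
  · obtain ⟨ξ, η, h1, h2⟩ := h ω
    exact ⟨WithLp.toLp 2 (0, ξ), WithLp.toLp 2 (0, η), by simpa using h1,
      fun a => by simp [sumRep, h2]⟩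
  · simp [sumRep]

/-- intertwiners -/
def Itw (π : A →⋆ₐ[ℂ] (H →L[ℂ] H)) (ρ : A →⋆ₐ[ℂ] (K →L[ℂ] K)) : Set (H →L[ℂ] K) :=
  {U | ∀ a h, ρ a (U h) = U (π a h)}

variable {π : A →⋆ₐ[ℂ] (H →L[ℂ] H)} {ρ : A →⋆ₐ[ℂ] (K →L[ℂ] K)}

theorem Itw.adj {U : H →L[ℂ] K} (hU : U ∈ Itw π ρ) (a : A) (k : K) :
    U.adjoint (ρ a k) = π a (U.adjoint k) := ext_inner_left ℂ fun h => by
  rw [ContinuousLinearMap.adjoint_inner_right, ← ContinuousLinearMap.adjoint_inner_left (ρ a),
    ← ContinuousLinearMap.star_eq_adjoint, ← map_star, hU, ← ContinuousLinearMap.adjoint_inner_right,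
    map_star, ContinuousLinearMap.star_eq_adjoint, ContinuousLinearMap.adjoint_inner_left]

/-- sums of vectors in ranges of intertwiners -/
noncomputable def ev (π : A →⋆ₐ[ℂ] (H →L[ℂ] H)) (ρ : A →⋆ₐ[ℂ] (K →L[ℂ] K)) (T : H →L[ℂ] H) :
    (Itw π ρ →₀ H) →ₗ[ℂ] K := Finsupp.lsum ℂ fun U => (U.1.comp T).toLinearMap

theorem ev_single (T : H →L[ℂ] H) (U : Itw π ρ) (h : H) :
    ev π ρ T (Finsupp.single U h) = U.1 (T h) := by simp [ev]

theorem ev_norm {u : H →L[ℂ] H} (hu : star u * u = 1) (hc : ∀ s ∈ Ext.cmt π, s * u = u * s)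
    (x : Itw π ρ →₀ H) : ‖ev π ρ u x‖ = ‖ev π ρ 1 x‖ := by
  have : ∀ x y, ⟪ev π ρ u x, ev π ρ u y⟫_ℂ = ⟪ev π ρ 1 x, ev π ρ 1 y⟫_ℂ := by
    intro x y
    induction x using Finsupp.induction_linear with
    | zero => simp
    | add x x' h1 h2 => simp only [map_add, inner_add_left, h1, h2]
    | single U h =>
      induction y using Finsupp.induction_linear with
      | zero => simp
      | add y y' h1 h2 => simp only [map_add, inner_add_right, h1, h2]
      | single U' k =>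
        have a1 := DFunLike.congr_fun (hc (U.1.adjoint ∘L U'.1) fun a =>
          ContinuousLinearMap.ext fun h => by
            simp only [mul_apply_eq_comp, ContinuousLinearMap.comp_apply]
            rw [← U'.2, Itw.adj U.2]) k
        have a2 := DFunLike.congr_fun hu (U.1.adjoint (U'.1 k))
        simp only [mul_apply_eq_comp, ContinuousLinearMap.comp_apply, one_apply_eq_self,
          ContinuousLinearMap.star_eq_adjoint] at a1 a2
        simp only [ev_single, one_apply_eq_self, ← ContinuousLinearMap.adjoint_inner_right U.1]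
        rw [a1, ← ContinuousLinearMap.adjoint_inner_right u, a2]
  rw [norm_eq_sqrt_re_inner (𝕜 := ℂ), this, ← norm_eq_sqrt_re_inner]

theorem ev_le (T : comm (Ext.cmt π)) (x : Itw π ρ →₀ H) :
    ‖ev π ρ T x‖ ≤ 2 * ‖T‖ * ‖ev π ρ 1 x‖ := by
  obtain ⟨u, c, h1, h2⟩ := CStarAlgebra.exists_sum_four_unitary T
  have : ev π ρ T x = ∑ i, c i • ev π ρ (u i : comm (Ext.cmt π)) x := by
    have e : (T : H →L[ℂ] H) = ∑ i, c i • ((u i : comm (Ext.cmt π)) : H →L[ℂ] H) := by
      rw [h1]; simp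
    induction x using Finsupp.induction_linear with
    | zero => simp
    | add y y' h1 h2 => simp only [map_add, h1, h2, smul_add, Finset.sum_add_distrib]
    | single U k => simp [ev_single, e]
  rw [this]
  refine (norm_sum_le _ _).trans ((Finset.sum_le_sum (g := fun _ => ‖T‖ / 2 * ‖ev π ρ 1 x‖)
    fun i _ => ?_).trans_eq (by simp; ring))
  rw [norm_smul, ev_norm (congrArg Subtype.val (u i).2.1)
    fun s hs => (mem_comm_iff.1 (u i).1.2 s hs).1]
  exact mul_le_mul_of_nonneg_right (h2 i) (norm_nonneg _)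

/-- vectors orthogonal to the ranges of all intertwiners -/
noncomputable def perp (π : A →⋆ₐ[ℂ] (H →L[ℂ] H)) (ρ : A →⋆ₐ[ℂ] (K →L[ℂ] K)) : Submodule ℂ K :=
  (LinearMap.range (ev π ρ 1))ᗮ

theorem mem_perp {z : K} : z ∈ perp π ρ ↔ ∀ U ∈ Itw π ρ, ∀ h, ⟪U h, z⟫_ℂ = 0 := by
  refine ⟨fun hz U hU h => hz _ ⟨Finsupp.single ⟨U, hU⟩ h, ev_single _ _ _⟩, ?_⟩
  rintro h _ ⟨x, rfl⟩
  induction x using Finsupp.induction_linear with
  | zero => simp
  | add y y' h1 h2 => rw [map_add, inner_add_left, h1, h2, add_zero]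
  | single U k => rw [ev_single, h _ U.2]

theorem dense_ev : DenseRange ((ev π ρ 1).coprod (perp π ρ).subtype) := by
  change Dense (LinearMap.range ((ev π ρ 1).coprod (perp π ρ).subtype) : Set K)
  rw [Submodule.dense_iff_topologicalClosure_eq_top, Submodule.topologicalClosure_eq_top_iff,
    eq_bot_iff]
  intro z hz
  have h1 : z ∈ perp π ρ := by
    rintro _ ⟨x, rfl⟩
    exact hz _ ⟨(x, 0), by simp⟩
  exact inner_self_eq_zero.1 (hz z ⟨(0, ⟨z, h1⟩), by simp⟩)

theorem itw_ext {S S' : K →L[ℂ] K} (h1 : ∀ U ∈ Itw π ρ, ∀ h, S (U h) = S' (U h))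
    (h2 : ∀ z ∈ perp π ρ, S z = S' z) : S = S' := by
  refine DFunLike.coe_injective ((dense_ev (π := π) (ρ := ρ)).equalizer S.continuous S'.continuous
    (funext fun p => ?_))
  have : ∀ x, S (ev π ρ 1 x) = S' (ev π ρ 1 x) := fun x => by
    induction x using Finsupp.induction_linear with
    | zero => simp
    | add y y' h1 h2 => simp only [map_add, h1, h2]
    | single U k => rw [ev_single, h1 _ U.2]
  simp [this, h2 _ p.2.2]

theorem exists_lift (T : comm (Ext.cmt π)) : ∃ S : K →L[ℂ] K, ‖S‖ ≤ 2 * ‖T‖ ∧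
    (∀ U ∈ Itw π ρ, ∀ h, S (U h) = U ((T : H →L[ℂ] H) h)) ∧ ∀ z ∈ perp π ρ, S z = 0 := by
  have hn : ∀ p : (Itw π ρ →₀ H) × perp π ρ, ‖(ev π ρ T ∘ₗ LinearMap.fst ℂ _ _) p‖ ≤
      2 * ‖T‖ * ‖(ev π ρ 1).coprod (perp π ρ).subtype p‖ := fun p => by
    refine (ev_le T p.1).trans (mul_le_mul_of_nonneg_left ?_ (by positivity))
    have := norm_add_sq_eq_norm_sq_add_norm_sq_of_inner_eq_zero (𝕜 := ℂ) (ev π ρ 1 p.1) p.2
      (p.2.2 _ ⟨_, rfl⟩)
    refine (mul_self_le_mul_self_iff (norm_nonneg _) (norm_nonneg _)).2 ?_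
    rw [LinearMap.coprod_apply, Submodule.subtype_apply, this]
    exact le_add_of_nonneg_right (mul_self_nonneg _)
  have he := LinearMap.extendOfNorm_eq dense_ev ⟨_, hn⟩
  refine ⟨_, LinearMap.opNorm_extendOfNorm_le dense_ev (by positivity) hn, fun U hU h => ?_,
    fun z hz => ?_⟩
  · simpa [ev_single] using he (Finsupp.single ⟨U, hU⟩ h, 0)
  · simpa using he (0, ⟨z, hz⟩)

theorem bicomm_vanishes (π : A →⋆ₐ[ℂ] (H →L[ℂ] H)) :
    Vanishes A (comm (Ext.cmt π)) (fun a x => rp π a * x) (fun x a => x * rp π a) := by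
  obtain ⟨K, _, _, _, ρ, V, hu, hV, hi⟩ := exists_univ' π
  have hV' : V ∈ Itw π ρ := hV
  have vv : ∀ h, V.adjoint (V h) = h := fun h => ext_inner_left ℂ fun k => by
    rw [ContinuousLinearMap.adjoint_inner_right, hi]
  choose S n h1 h2 using exists_lift (π := π) (ρ := ρ)
  have cm : ∀ y ∈ Ext.cmt ρ, ∀ U ∈ Itw π ρ, y ∘L U ∈ Itw π ρ := fun y hy U hU a h => by
    rw [ContinuousLinearMap.comp_apply, ContinuousLinearMap.comp_apply, ← hU, ← mul_apply_eq_comp,
      ← hy, mul_apply_eq_comp]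
  have mem : ∀ T, S T ∈ comm (Ext.cmt ρ) := fun T => mem_bicomm fun y hy =>
    itw_ext (π := π) (ρ := ρ) (fun U hU h => by
      rw [mul_apply_eq_comp, h1 T U hU]
      exact (h1 T _ (cm y hy U hU) h).symm) fun z hz => by
      rw [mul_apply_eq_comp, mul_apply_eq_comp, h2 T z hz, map_zero, h2 T _ (mem_perp.2
        fun U hU h => by
          rw [← ContinuousLinearMap.adjoint_inner_left]
          exact mem_perp.1 hz _ (cm _ (star_cmt hy) U hU) h)]
  let s : comm (Ext.cmt π) →L[ℂ] comm (Ext.cmt ρ) := LinearMap.mkContinuous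
    { toFun := fun T => ⟨S T, mem T⟩
      map_add' := fun T R => Subtype.ext (itw_ext (π := π) (ρ := ρ)
        (fun U hU h => by simp [h1 _ U hU]) fun z hz => by simp [h2 _ z hz])
      map_smul' := fun c T => Subtype.ext (itw_ext (π := π) (ρ := ρ)
        (fun U hU h => by simp [h1 _ U hU]) fun z hz => by simp [h2 _ z hz]) } 2 n
  let θ₀ : comm (Ext.cmt ρ) →L[ℂ] (H →L[ℂ] H) := ((ContinuousLinearMap.precomp H V).comp
    (ContinuousLinearMap.compL ℂ K K H V.adjoint)).comp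
      (comm (Ext.cmt ρ)).toSubalgebra.toSubmodule.subtypeL
  have hθ : ∀ x h, θ₀ x h = V.adjoint ((x : K →L[ℂ] K) (V h)) := fun _ _ => rfl
  have mem' : ∀ x, θ₀ x ∈ comm (Ext.cmt π) := fun x => mem_bicomm fun y hy =>
    ContinuousLinearMap.ext fun h => by
      have a1 := DFunLike.congr_fun (mem_comm_iff.1 x.2 (V ∘L y ∘L V.adjoint) fun a =>
        ContinuousLinearMap.ext fun k => by
          simp only [mul_apply_eq_comp, ContinuousLinearMap.comp_apply]
          rw [hV, Itw.adj hV', ← mul_apply_eq_comp y, hy, mul_apply_eq_comp]).1 (V h)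
      simp only [mul_apply_eq_comp, ContinuousLinearMap.comp_apply, vv] at a1
      rw [mul_apply_eq_comp, mul_apply_eq_comp, hθ, hθ, ← a1, vv]
  refine (univ_vanishes hu).retract s
    (θ₀.codRestrict (comm (Ext.cmt π)).toSubalgebra.toSubmodule mem')
    (fun T => Subtype.ext (ContinuousLinearMap.ext fun h => ?_))
    (fun a T => Subtype.ext (itw_ext (π := π) (ρ := ρ) (fun U hU h => ?_) fun z hz => ?_))
    (fun a T => Subtype.ext (itw_ext (π := π) (ρ := ρ) (fun U hU h => ?_) fun z hz => ?_))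
    (fun a x => Subtype.ext (ContinuousLinearMap.ext fun h => Itw.adj hV' a _))
    (fun a x => Subtype.ext (ContinuousLinearMap.ext fun h => ?_))
  · exact (congrArg V.adjoint (h1 T V hV' h)).trans (vv _)
  · change S _ _ = ρ a (S T (U h))
    rw [h1 _ U hU, h1 _ U hU, hU]; rfl
  · change S _ _ = ρ a (S T z)
    rw [h2 _ z hz, h2 _ z hz, map_zero]
  · change S _ _ = S T (ρ a (U h))
    rw [hU, h1 _ U hU, h1 _ U hU]; rfl
  · change S _ _ = S T (ρ a z)
    rw [h2 _ z hz, h2 _ _ (mem_perp.2 fun U hU h => ?_)]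
    rw [← ContinuousLinearMap.adjoint_inner_left, ← ContinuousLinearMap.star_eq_adjoint, ← map_star,
      hU, mem_perp.1 hz U hU]
  · change V.adjoint ((x : K →L[ℂ] K) (ρ a (V h))) = V.adjoint ((x : K →L[ℂ] K) (V (π a h)))
    rw [hV]

/-- inclusion of star subalgebras as a bounded linear map -/
noncomputable def incl {S T : StarSubalgebra ℂ (H →L[ℂ] H)} (h : ∀ x ∈ S, x ∈ T) : S →L[ℂ] T :=
  S.toSubalgebra.toSubmodule.subtypeL.codRestrict T.toSubalgebra.toSubmodule fun x => h x x.2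

theorem gen_vanishes (M : VonNeumannAlgebra H) (π : A →⋆ₐ[ℂ] M.toStarSubalgebra)
    (h : (Set.range fun a => (π a).val).centralizer.centralizer = M) :
    Vanishes A M.toStarSubalgebra (fun a x => π a * x) (fun x a => x * π a) := by
  refine (bicomm_vanishes (M.toStarSubalgebra.subtype.comp π)).retract
    (incl fun x hx => mem_bicomm fun y hy => ?_) (incl fun x hx => ?_) (fun _ => rfl)
    (fun _ _ => rfl) (fun _ _ => rfl) (fun _ _ => rfl) (fun _ _ => rfl)
  · have : x ∈ (Set.range fun a => (π a).val).centralizer.centralizer := h ▸ hx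
    refine this y ?_
    rintro _ ⟨a, rfl⟩
    exact (hy a).symm
  · exact mem_vn M fun Y hY => (mem_comm_iff.1 hx Y fun a => hY _ (π a).2).1

theorem exp_vanishes (M : VonNeumannAlgebra H) (π : A →⋆ₐ[ℂ] M.toStarSubalgebra)
    (E : M.toStarSubalgebra →L[ℂ] A) (h1 : ‖E‖ ≤ 1) (h2 : ∀ a, E (π a) = a) :
    Vanishes A A (· * ·) (· * ·) :=
  Retr.vanishes (Q := E.comp (incl fun _ hx =>
      mem_vn M fun Y hY => (mem_comm_iff.1 hx Y fun a => hY _ (π a).2).1))
    ⟨fun _ => (E.le_of_opNorm_le h1 _).trans_eq (one_mul _), h2⟩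
    (bicomm_vanishes (M.toStarSubalgebra.subtype.comp π))

end Vale.Agent.N082B
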